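import Vale.Agent.P200F.L7

/-!
The lex-plus-powers conjecture (and with it the Eisenbud-Green-Harris conjecture) over every field.
-/

namespace Vale.Agent.Results.P200.LexPlusPowersConjecture

open MvPolynomial Module Vale.Agent.P200F

/-- **The lex-plus-powers conjecture.** -/
theorem result (K : Type*) [Field K] {n c : ℕ} (h : c ≤ n) (a : Fin c → ℕ)
    (ha : Monotone a) (h2 : ∀ i, 2 ≤ a i) (f : Fin c → MvPolynomial (Fin n) K)
    (hf : ∀ i, (f i).IsHomogeneous (a i)) (hreg : IsRegularSeq f)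
    (I : Ideal (MvPolynomial (Fin n) K)) (hI : ∀ g ∈ I, ∀ d, homogeneousComponent d g ∈ I)
    (hfI : ∀ i, f i ∈ I) :
    ∃ J : Ideal (MvPolynomial (Fin n) K), J.restrictScalars K = lexPlusPowers h a I ∧
      ∀ p j, bettiNumber I p j ≤ bettiNumber J p j :=
  V.lpp K h a ha h2 f hf hreg I hI hfI

end Vale.Agent.Results.P200.LexPlusPowersConjecture
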